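import Mathlib
import Vale.Agent.P042.Main7343

/-- Lower bound for sets with no square difference: `r_{x^2}(N) ≥ c N^(7343/10000)`, where
`0.7343` exceeds the previous record exponent `0.733411...`. -/
theorem Vale.Agent.Results.P042.SquareDiffExponentB.result :
    ∃ c : ℝ, 0 < c ∧ ∀ N : ℕ, 1 ≤ N →
      ∃ A : Finset ℕ, (∀ x ∈ A, 1 ≤ x ∧ x ≤ N) ∧
        (∀ x ∈ A, ∀ y ∈ A, ∀ n : ℕ, 1 ≤ n → (x : ℤ) - y ≠ (n : ℤ) ^ 2) ∧
        c * (N : ℝ) ^ ((7343 : ℝ) / 10000) ≤ (A.card : ℝ) :=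
  Vale.Agent.P042.main7343
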